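import Vale.Agent.P203.Defs

/-!
Two reflections in a plane, the gauge-deformed reflection representation, and the central
extension of the Artin group that it gives.
-/

namespace Vale.Agent.P203

open Real

/-- `sin (n θ) / sin θ` for `θ = π / m`. -/
noncomputable def chebS (m n : ℕ) : ℝ := Real.sin (n * (π / m)) / Real.sin (π / m)

/-- `2 cos (π / m)`. -/
noncomputable def chebC (m : ℕ) : ℝ := 2 * Real.cos (π / m)

section Cheb

variable {m : ℕ}

lemma sin_pi_div_pos (hm : 2 ≤ m) : 0 < Real.sin (π / m) := by
  refine Real.sin_pos_of_pos_of_lt_pi (by positivity) ?_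
  have : (2 : ℝ) ≤ m := by exact_mod_cast hm
  rw [div_lt_iff₀ (by linarith)]
  nlinarith [Real.pi_pos]

lemma chebS_zero : chebS m 0 = 0 := by simp [chebS]

lemma chebS_one (hm : 2 ≤ m) : chebS m 1 = 1 := by
  simp [chebS, (sin_pi_div_pos hm).ne']

lemma chebS_rec (n : ℕ) : chebS m (n + 2) = chebC m * chebS m (n + 1) - chebS m n := by
  have key : ∀ t : ℝ, Real.sin ((n + 2 : ℝ) * t) =
      2 * Real.cos t * Real.sin ((n + 1 : ℝ) * t) - Real.sin ((n : ℝ) * t) := by
    intro t
    have h1 : ((n : ℝ) + 2) * t = ((n : ℝ) + 1) * t + t := by ring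
    have h2 : (n : ℝ) * t = ((n : ℝ) + 1) * t - t := by ring
    rw [h1, h2, Real.sin_add, Real.sin_sub]
    ring
  simp only [chebS, chebC, Nat.cast_add, Nat.cast_one, Nat.cast_ofNat]
  rw [key]
  ring

lemma chebS_symm (hm : 2 ≤ m) {r : ℕ} (hr : r ≤ m) : chebS m (m - r) = chebS m r := by
  unfold chebS
  congr 1
  have : (m : ℝ) ≠ 0 := by
    have : (2 : ℝ) ≤ m := by exact_mod_cast hm
    linarith
  rw [Nat.cast_sub hr, sub_mul, mul_div_cancel₀ _ this, Real.sin_pi_sub]

lemma chebS_self (hm : 2 ≤ m) : chebS m m = 0 := by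
  rw [← chebS_symm hm le_rfl, Nat.sub_self, chebS_zero]

lemma chebS_self_add_one (hm : 2 ≤ m) : chebS m (m + 1) = -1 := by
  obtain ⟨j, rfl⟩ : ∃ j, m = j + 1 := ⟨m - 1, by omega⟩
  have hj : chebS (j + 1) j = 1 := by
    have h := chebS_symm hm (r := 1) (by omega)
    rwa [Nat.add_sub_cancel, chebS_one hm] at h
  rw [chebS_rec j, chebS_self hm, hj]
  ring

lemma not_both_zero (hm : 2 ≤ m) : ∀ r, ¬ (chebS m (r + 1) = 0 ∧ chebS m r = 0)
  | 0 => fun h => by simp [chebS_one hm] at h
  | r + 1 => fun h => not_both_zero hm r ⟨h.2, by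
      have := chebS_rec (m := m) r
      rw [h.1, h.2] at this
      linarith⟩

end Cheb

section Plane

variable {E : Type} [AddCommGroup E] [Module ℝ E]

/-- The reflection `w ↦ w - f w • u`. -/
noncomputable def refl (f : E →ₗ[ℝ] ℝ) (u : E) : E →ₗ[ℝ] E := LinearMap.id - f.smulRight u

lemma refl_apply (f : E →ₗ[ℝ] ℝ) (u w : E) : refl f u w = w - f w • u := by simp [refl]

/-- The alternating composite `A ∘ B ∘ A ∘ ⋯` with `n` factors. -/
noncomputable def altMap : (E →ₗ[ℝ] E) → (E →ₗ[ℝ] E) → ℕ → (E →ₗ[ℝ] E)
  | _, _, 0 => LinearMap.id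
  | A, B, n + 1 => A ∘ₗ altMap B A n

/-- The `n`-th root along the alternating word. -/
noncomputable def altRoot : (E →ₗ[ℝ] E) → (E →ₗ[ℝ] E) → E → E → ℕ → E
  | _, _, u, _, 0 => u
  | A, B, u, v, n + 1 => A (altRoot B A v u n)

/-- The relations of two reflections with product of rotation number `π / m`. -/
structure PlanePair (m : ℕ) (A B : E →ₗ[ℝ] E) (u v : E) : Prop where
  au : A u = -u
  av : A v = v + chebC m • u
  bv : B v = -v
  bu : B u = u + chebC m • v

lemma PlanePair.swap {m : ℕ} {A B : E →ₗ[ℝ] E} {u v : E} (h : PlanePair m A B u v) :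
    PlanePair m B A v u := ⟨h.bv, h.bu, h.au, h.av⟩

lemma altRoot_eq {m : ℕ} (hm : 2 ≤ m) : ∀ (n : ℕ) {A B : E →ₗ[ℝ] E} {u v : E},
    PlanePair m A B u v → altRoot A B u v n = chebS m (n + 1) • u + chebS m n • v
  | 0, A, B, u, v, _ => by simp [altRoot, chebS_one hm, chebS_zero]
  | n + 1, A, B, u, v, h => by
      rw [altRoot, altRoot_eq hm n h.swap, map_add, map_smul, map_smul, h.au, h.av,
        chebS_rec n]
      module

lemma altRoot_smul (a b : ℝ) : ∀ (n : ℕ) (A B : E →ₗ[ℝ] E) (u v : E),
    altRoot A B (a • u) (b • v) n = (if Even n then a else b) • altRoot A B u v n := by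
  intro n
  induction n generalizing a b with
  | zero => intro A B u v; simp [altRoot]
  | succ n ih =>
    intro A B u v
    rw [altRoot, altRoot, ih b a, map_smul]
    by_cases h : Even n <;> simp [h, Nat.even_add_one]

lemma altMap_eq {m : ℕ} (hm : 2 ≤ m) : ∀ (n : ℕ) {A B : E →ₗ[ℝ] E} {u v : E},
    PlanePair m A B u v →
      altMap A B (n + 1) u = (if Even n then -(chebS m (n + 1) • u + chebS m n • v)
          else chebS m (n + 2) • u + chebS m (n + 1) • v) ∧
      altMap A B (n + 1) v = (if Even n then chebS m (n + 2) • u + chebS m (n + 1) • v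
          else -(chebS m (n + 1) • u + chebS m n • v))
  | 0, A, B, u, v, h => by
      constructor
      · simp [altMap, h.au, chebS_one hm, chebS_zero]
      · simp [altMap, h.av, chebS_one hm, chebS_rec 0, chebS_zero]
        module
  | n + 1, A, B, u, v, h => by
      obtain ⟨hv, hu⟩ := altMap_eq hm n h.swap
      rw [altMap, LinearMap.comp_apply, LinearMap.comp_apply, hu, hv]
      by_cases he : Even n <;>
        simp only [he, Nat.even_add_one, not_true_eq_false, not_false_eq_true, ↓reduceIte,
          map_neg, map_add, map_smul, h.au, h.av, chebS_rec n, chebS_rec (n + 1)] <;>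
        constructor <;> module

lemma altMap_fix (A B : E →ₗ[ℝ] E) (w : E) (hA : A w = w) (hB : B w = w) :
    ∀ n, altMap A B n w = w ∧ altMap B A n w = w
  | 0 => ⟨rfl, rfl⟩
  | n + 1 => ⟨by simp [altMap, (altMap_fix A B w hA hB n).2, hA],
      by simp [altMap, (altMap_fix A B w hA hB n).1, hB]⟩

/-- The braid relation for two reflections. -/
lemma altMap_braid {m : ℕ} (hm : 2 ≤ m) {f g : E →ₗ[ℝ] ℝ} {u v : E}
    (hfu : f u = 2) (hfv : f v = -chebC m) (hgv : g v = 2) (hgu : g u = -chebC m) :
    altMap (refl f u) (refl g v) m = altMap (refl g v) (refl f u) m := by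
  have h : PlanePair m (refl f u) (refl g v) u v :=
    ⟨by rw [refl_apply, hfu]; module, by rw [refl_apply, hfv]; module,
      by rw [refl_apply, hgv]; module, by rw [refl_apply, hgu]; module⟩
  obtain ⟨j, rfl⟩ : ∃ j, m = j + 1 := ⟨m - 1, by omega⟩
  obtain ⟨h1, h2⟩ := altMap_eq hm j h
  obtain ⟨h3, h4⟩ := altMap_eq hm j h.swap
  have hj : chebS (j + 1) j = 1 := by
    have h := chebS_symm hm (r := 1) (by omega)
    rwa [Nat.add_sub_cancel, chebS_one hm] at h
  rw [chebS_self hm, chebS_self_add_one hm, hj] at h1 h2 h3 h4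
  have hu : altMap (refl f u) (refl g v) (j + 1) u = altMap (refl g v) (refl f u) (j + 1) u := by
    rw [h1, h4]; split_ifs <;> module
  have hv : altMap (refl f u) (refl g v) (j + 1) v = altMap (refl g v) (refl f u) (j + 1) v := by
    rw [h2, h3]; split_ifs <;> module
  have hD : 4 - chebC (j + 1) ^ 2 ≠ 0 := by
    have h1 := sin_pi_div_pos hm
    have h2 := Real.sin_sq_add_cos_sq (π / ((j + 1 : ℕ) : ℝ))
    intro h0
    unfold chebC at h0
    nlinarith
  refine LinearMap.ext fun w => ?_
  obtain ⟨x, y, hx, hy⟩ : ∃ x y : ℝ, f (w - x • u - y • v) = 0 ∧ g (w - x • u - y • v) = 0 := by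
    refine ⟨(2 * f w + chebC (j + 1) * g w) / (4 - chebC (j + 1) ^ 2),
      (2 * g w + chebC (j + 1) * f w) / (4 - chebC (j + 1) ^ 2), ?_, ?_⟩
    · simp only [map_sub, map_smul, hfu, hfv, smul_eq_mul]
      field_simp
      ring
    · simp only [map_sub, map_smul, hgu, hgv, smul_eq_mul]
      field_simp
      ring
  set z := w - x • u - y • v with hz
  have hw : w = z + x • u + y • v := by rw [hz]; abel
  have hA : refl f u z = z := by rw [refl_apply, hx]; simp
  have hB : refl g v z = z := by rw [refl_apply, hy]; simp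
  rw [hw, map_add, map_add, map_add, map_add, map_smul, map_smul, map_smul, map_smul, hu, hv,
    (altMap_fix _ _ z hA hB _).1, (altMap_fix _ _ z hA hB _).2]

end Plane

section Artin

variable {S : Type} (M : CoxeterMatrix S) (k : S → S → ℝ)

open Classical in
/-- The gauge-deformed bilinear form. -/
noncomputable def bil (s t : S) : ℝ :=
  if s = t then 2 else -chebC (M s t) * Real.exp (k s t)

/-- The linear functional of the reflection in `α_s`. -/
noncomputable def fun1 (s : S) : (S →₀ ℝ) →ₗ[ℝ] ℝ := Finsupp.linearCombination ℝ (bil M k s)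

/-- The reflection of the deformed representation. -/
noncomputable def rho (s : S) : (S →₀ ℝ) →ₗ[ℝ] (S →₀ ℝ) :=
  refl (fun1 M k s) (Finsupp.single s 1)

lemma rho_rho (s : S) (w : S →₀ ℝ) : rho M k s (rho M k s w) = w := by
  have h : fun1 M k s (Finsupp.single s 1) = 2 := by simp [fun1, bil]
  simp only [rho, refl_apply, map_sub, map_smul, h, smul_eq_mul]
  module

/-- Logarithmic sizes of nonzero vectors. -/
def LogSize (S : Type) : Type :=
  {h : (S →₀ ℝ) → ℝ // ∀ (c : ℝ) (w : S →₀ ℝ), c ≠ 0 → w ≠ 0 → h (c • w) = h w + Real.log |c|}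

/-- A logarithmic size composed with a reflection. -/
noncomputable def move (s : S) (h : LogSize S) : LogSize S :=
  ⟨fun w => h.1 (rho M k s w), fun c w hc hw => by
    show h.1 (rho M k s (c • w)) = h.1 (rho M k s w) + Real.log |c|
    rw [map_smul]
    refine h.2 c _ hc fun h0 => hw ?_
    rw [← rho_rho M k s w, h0, map_zero]⟩

lemma move_move (s : S) (h : LogSize S) : move M k s (move M k s h) = h :=
  Subtype.ext (funext fun w => congrArg h.1 (rho_rho M k s w))

/-- The image of a generator. -/
noncomputable def genPerm (s : S) : Equiv.Perm (LogSize S × ℝ) where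
  toFun p := (move M k s p.1, p.2 + p.1.1 (Finsupp.single s 1))
  invFun p := (move M k s p.1, p.2 - (move M k s p.1).1 (Finsupp.single s 1))
  left_inv p := by simp only [move_move]; simp
  right_inv p := by simp only [move_move]; simp

/-- The homomorphism of the free group. -/
noncomputable def toPerm : FreeGroup S →* Equiv.Perm (LogSize S × ℝ) :=
  FreeGroup.lift (genPerm M k)

lemma toPerm_altWord : ∀ (n : ℕ) (a b : S) (h : LogSize S) (x : ℝ),
    (toPerm M k (altWord a b n) (h, x)).2 = x + ∑ r ∈ Finset.range n,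
        h.1 (altRoot (rho M k a) (rho M k b) (Finsupp.single a 1) (Finsupp.single b 1) r) ∧
    ∀ w, (toPerm M k (altWord a b n) (h, x)).1.1 w = h.1 (altMap (rho M k a) (rho M k b) n w)
  | 0, a, b, h, x => by simp [altWord, altMap]
  | n + 1, a, b, h, x => by
      obtain ⟨ih1, ih2⟩ := toPerm_altWord n b a (move M k a h) (x + h.1 (Finsupp.single a 1))
      have hstep : toPerm M k (altWord a b (n + 1)) (h, x) =
          toPerm M k (altWord b a n) (move M k a h, x + h.1 (Finsupp.single a 1)) := by
        rw [altWord, map_mul, Equiv.Perm.mul_apply, toPerm, FreeGroup.lift_apply_of]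
        rfl
      rw [hstep]
      refine ⟨?_, fun w => ?_⟩
      · rw [ih1, Finset.sum_range_succ']
        simp only [altRoot, move]
        ring
      · rw [ih2]
        rfl

/-- The central translations. -/
def shift (S : Type) (d : ℝ) : Equiv.Perm (LogSize S × ℝ) :=
  Equiv.prodCongr (Equiv.refl _) (Equiv.addRight d)

lemma shift_apply (d : ℝ) (p : LogSize S × ℝ) : shift S d p = (p.1, p.2 + d) := rfl

lemma sum_parity (c : ℝ) : ∀ m : ℕ,
    (∑ r ∈ Finset.range m, if Even r then -c else c) = if Odd m then -c else 0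
  | 0 => by simp
  | m + 1 => by
      rw [Finset.sum_range_succ, sum_parity c m]
      by_cases h : Even m <;> simp [h, Nat.odd_add_one, ← Nat.not_even_iff_odd, Nat.even_add_one]

/-- The deformed representation sends a braid relator to a central translation. -/
lemma toPerm_braidRel (hk : ∀ a b, k b a = -k a b) (a b : S) :
    toPerm M k (braidRel M a b) = shift S (if Odd (M a b) then -k a b else 0) := by
  classical
  by_cases hab : a = b
  · subst hab
    have : k a a = 0 := by linarith [hk a a]
    refine Equiv.ext fun p => ?_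
    simp [braidRel, this, shift_apply]
  by_cases hm0 : M a b = 0
  · refine Equiv.ext fun p => ?_
    simp [braidRel, hm0, altWord, shift_apply]
  have hm : 2 ≤ M a b := by
    have := M.off_diagonal a b hab
    omega
  set q := Real.exp (k a b) with hq
  have hqpos : 0 < q := Real.exp_pos _
  have hba : M b a = M a b := M.symmetric b a
  set u : S →₀ ℝ := Finsupp.single a 1 with hu
  set v : S →₀ ℝ := q⁻¹ • Finsupp.single b 1 with hv
  have hfu : fun1 M k a u = 2 := by simp [fun1, bil, hu]
  have hfv : fun1 M k a v = -chebC (M a b) := by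
    simp [fun1, bil, hv, hab, ← hq]
    field_simp
  have hgv : (q • fun1 M k b) v = 2 := by
    simp [fun1, bil, hv]
    field_simp
  have hgu : (q • fun1 M k b) u = -chebC (M a b) := by
    simp [fun1, bil, hu, Ne.symm hab, hba, hk a b, Real.exp_neg, ← hq]
    field_simp
  have hrb : rho M k b = refl (q • fun1 M k b) v := by
    refine LinearMap.ext fun w => ?_
    simp only [rho, refl_apply, hv, LinearMap.smul_apply, smul_eq_mul, smul_smul]
    congr 2
    field_simp
  have hsb : Finsupp.single b (1 : ℝ) = q • v := by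
    rw [hv, smul_smul, mul_inv_cancel₀ hqpos.ne', one_smul]
  have hp : PlanePair (M a b) (rho M k a) (rho M k b) u v := by
    rw [hrb]
    exact ⟨by rw [rho, refl_apply, hfu]; module, by rw [rho, refl_apply, hfv]; module,
      by rw [refl_apply, hgv]; module, by rw [refl_apply, hgu]; module⟩
  have hR : ∀ r, altRoot (rho M k a) (rho M k b) u v r ≠ 0 := by
    intro r h0
    rw [altRoot_eq hm r hp] at h0
    refine not_both_zero hm r ⟨?_, ?_⟩
    · simpa [hu, hv, Ne.symm hab] using congrArg (fun w : S →₀ ℝ => w a) h0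
    · simpa [hu, hv, hab, hqpos.ne'] using congrArg (fun w : S →₀ ℝ => w b) h0
  refine Equiv.ext fun p => ?_
  obtain ⟨h, x⟩ : LogSize S × ℝ := p
  have hgoal : ∀ h x, toPerm M k (altWord a b (M a b)) (h, x) =
      shift S (if Odd (M a b) then -k a b else 0)
        (toPerm M k (altWord b a (M a b)) (h, x)) := by
    intro h x
    obtain ⟨s1, w1⟩ := toPerm_altWord M k (M a b) a b h x
    obtain ⟨s2, w2⟩ := toPerm_altWord M k (M a b) b a h x
    refine Prod.ext (Subtype.ext (funext fun w => ?_)) ?_
    · rw [shift_apply, w1, w2, hrb, rho, altMap_braid hm hfu hfv hgv hgu]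
    · rw [shift_apply, s1, s2]
      have e1 : ∀ r, h.1 (altRoot (rho M k a) (rho M k b) u (Finsupp.single b 1) r) =
          h.1 (altRoot (rho M k a) (rho M k b) u v r) + if Even r then 0 else k a b := by
        intro r
        conv_lhs => rw [← one_smul ℝ u, hsb, altRoot_smul]
        rw [h.2 _ _ (by split_ifs <;> simp [hqpos.ne']) (hR r)]
        split_ifs <;> simp [q]
      have e2 : ∀ r ∈ Finset.range (M a b),
          h.1 (altRoot (rho M k b) (rho M k a) (Finsupp.single b 1) u r) =
          h.1 (altRoot (rho M k a) (rho M k b) u v (M a b - 1 - r)) +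
            if Even r then k a b else 0 := by
        intro r hr
        have hr' := Finset.mem_range.1 hr
        have hrev : altRoot (rho M k b) (rho M k a) v u r =
            altRoot (rho M k a) (rho M k b) u v (M a b - 1 - r) := by
          rw [altRoot_eq hm _ hp, altRoot_eq hm _ hp.swap,
            show M a b - 1 - r + 1 = M a b - r by omega, chebS_symm hm hr'.le,
            show M a b - 1 - r = M a b - (r + 1) by omega, chebS_symm hm hr']
          module
        conv_lhs => rw [← one_smul ℝ u, hsb, altRoot_smul, hrev]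
        rw [h.2 _ _ (by split_ifs <;> simp [hqpos.ne']) (hR _)]
        split_ifs <;> simp [q]
      rw [Finset.sum_congr rfl fun r _ => e1 r, Finset.sum_congr rfl e2,
        Finset.sum_add_distrib, Finset.sum_add_distrib,
        Finset.sum_range_reflect (fun r => h.1 (altRoot (rho M k a) (rho M k b) u v r))]
      have := sum_parity (k a b) (M a b)
      have hsplit : ∀ r : ℕ, (if Even r then -k a b else k a b) =
          (if Even r then (0 : ℝ) else k a b) - if Even r then k a b else 0 := fun r => by
        split_ifs <;> ring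
      rw [Finset.sum_congr rfl fun r _ => hsplit r, Finset.sum_sub_distrib] at this
      linarith
  rw [braidRel, map_mul, map_inv, Equiv.Perm.mul_apply]
  obtain ⟨⟨h', x'⟩, e⟩ := (toPerm M k (altWord b a (M a b))).surjective (h, x)
  rw [← e, Equiv.Perm.inv_def, Equiv.symm_apply_apply]
  exact hgoal h' x' 

end Artin

end Vale.Agent.P203
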