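import Mathlib

/-!
The braid relators of an Artin group, inside the free group on the generators.
-/

namespace Vale.Agent.P203

/-- The alternating word of length `n` in `a` and `b` whose last letter is `a`. -/
def altWord {S : Type} : S → S → ℕ → FreeGroup S
  | _, _, 0 => 1
  | a, b, n + 1 => altWord b a n * FreeGroup.of a

/-- The braid relator of the pair `(a, b)`; it is `1` if `M a b = 0`, the value used for infinity. -/
def braidRel {S : Type} (M : CoxeterMatrix S) (a b : S) : FreeGroup S :=
  altWord a b (M a b) * (altWord b a (M a b))⁻¹

/-- The normal subgroup of relations of the Artin group. -/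
def relSubgroup {S : Type} (M : CoxeterMatrix S) : Subgroup (FreeGroup S) :=
  Subgroup.normalClosure (Set.range fun p : S × S => braidRel M p.1 p.2)

end Vale.Agent.P203
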