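import Vale.Agent.P203.Base

/-!
The net exponent of an odd braid relator vanishes on relations among the relators.
-/

namespace Vale.Agent.P203

variable {S : Type}

/-- The net exponent of the pair `(i, j)` in a list of powers of relators. -/
noncomputable def expSum (L : List (S × S × ℤ)) (i j : S) : ℤ :=
  (L.map fun e => open Classical in if e.1 = i ∧ e.2.1 = j then e.2.2 else 0).sum

/-- The product of the listed powers of relators. -/
def relProd (M : CoxeterMatrix S) (L : List (S × S × ℤ)) : FreeGroup S :=
  (L.map fun e => braidRel M e.1 e.2.1 ^ e.2.2).prod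

/-- The translations as a homomorphism. -/
def shiftHom (S : Type) : Multiplicative ℝ →* Equiv.Perm (LogSize S × ℝ) where
  toFun d := shift S (Multiplicative.toAdd d)
  map_one' := Equiv.ext fun p => by simp [shift_apply]
  map_mul' d e := Equiv.ext fun p => by
    simp only [Equiv.Perm.mul_apply, shift_apply, toAdd_mul]
    refine Prod.ext rfl ?_
    simp only
    ring

lemma shift_comm (M : CoxeterMatrix S) (k : S → S → ℝ) (d : ℝ) (g : FreeGroup S) :
    Commute (shift S d) (toPerm M k g) := by
  induction g using FreeGroup.induction_on with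
  | C1 => rw [map_one]; exact Commute.one_right _
  | of s =>
    show Commute (shift S d) (toPerm M k (FreeGroup.of s))
    rw [toPerm, FreeGroup.lift_apply_of]
    exact Equiv.ext fun p => by
      simp [shift_apply, genPerm]
      ring
  | inv_of s h => rw [map_inv]; exact h.inv_right
  | mul x y hx hy => rw [map_mul]; exact hx.mul_right hy

lemma logSize_nonempty (S : Type) : Nonempty (LogSize S) := by
  refine ⟨⟨fun w => Real.log (w.sum fun _ a => |a|), fun c w hc hw => ?_⟩⟩
  have hsum : (c • w).sum (fun _ a => |a|) = |c| * w.sum (fun _ a => |a|) := by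
    rw [Finsupp.sum_smul_index (fun _ => abs_zero), Finsupp.mul_sum]
    simp [abs_mul]
  have hpos : 0 < w.sum (fun _ a => |a|) := by
    obtain ⟨t, ht⟩ := Finsupp.support_nonempty_iff.2 hw
    exact Finset.sum_pos (fun a ha => abs_pos.2 (Finsupp.mem_support_iff.1 ha)) ⟨t, ht⟩
  show Real.log ((c • w).sum fun _ a => |a|) = Real.log (w.sum fun _ a => |a|) + Real.log |c|
  rw [hsum, Real.log_mul (abs_ne_zero.2 hc) hpos.ne']
  ring

lemma toPerm_commutator (M : CoxeterMatrix S) (k : S → S → ℝ) (hk : ∀ a b, k b a = -k a b)
    {g : FreeGroup S} (hg : g ∈ ⁅(⊤ : Subgroup (FreeGroup S)), relSubgroup M⁆) :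
    toPerm M k g = 1 := by
  let N : Subgroup (FreeGroup S) :=
    (Subgroup.centralizer (Set.range (toPerm M k))).comap (toPerm M k)
  have hmem : ∀ {r}, r ∈ N ↔ ∀ f, Commute (toPerm M k f) (toPerm M k r) := fun {r} => by
    simp [N, Subgroup.mem_centralizer_iff, Commute, SemiconjBy]
  haveI : N.Normal := ⟨fun r hr f => by
    have hr' := hmem.1 hr
    refine hmem.2 fun f' => ?_
    rw [show toPerm M k (f * r * f⁻¹) = toPerm M k r by
      rw [map_mul, map_mul, (hr' f).eq, mul_assoc, ← map_mul, mul_inv_cancel, map_one, mul_one]]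
    exact hr' f'⟩
  have hN : relSubgroup M ≤ N := Subgroup.normalClosure_le_normal (by
    rintro _ ⟨⟨a, b⟩, rfl⟩
    refine hmem.2 fun f => ?_
    show Commute _ (toPerm M k (braidRel M a b))
    rw [toPerm_braidRel M k hk]
    exact (shift_comm M k _ f).symm)
  have hle : ⁅(⊤ : Subgroup (FreeGroup S)), relSubgroup M⁆ ≤ (toPerm M k).ker :=
    Subgroup.commutator_le.2 fun f _ r hr => by
      rw [MonoidHom.mem_ker, map_commutatorElement, commutatorElement_eq_one_iff_commute]
      exact hmem.1 (hN hr) f
  exact hle hg

/-- On a product of powers of relators lying in `[F, R]`, each odd relator has net exponent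
zero. -/
theorem odd_expSum_eq (M : CoxeterMatrix S) (L : List (S × S × ℤ))
    (hL : relProd M L ∈ ⁅(⊤ : Subgroup (FreeGroup S)), relSubgroup M⁆) (i j : S)
    (hodd : Odd (M i j)) : expSum L i j = expSum L j i := by
  classical
  set k : S → S → ℝ := fun a b =>
    (if a = i ∧ b = j then 1 else 0) - (if a = j ∧ b = i then 1 else 0) with hkdef
  have hk : ∀ a b, k b a = -k a b := fun a b => by
    simp only [hkdef, and_comm (a := b = i), and_comm (a := b = j)]
    ring
  set d : S × S × ℤ → ℝ := fun e =>
    (e.2.2 : ℝ) * (if Odd (M e.1 e.2.1) then -k e.1 e.2.1 else 0)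
  have hrel : toPerm M k (relProd M L) = shift S (L.map d).sum := by
    have h : ∀ l : List (S × S × ℤ),
        toPerm M k (relProd M l) = shiftHom S (Multiplicative.ofAdd (l.map d).sum) := by
      intro l
      induction l with
      | nil => simp [relProd]
      | cons e l ih =>
        have : relProd M (e :: l) = braidRel M e.1 e.2.1 ^ e.2.2 * relProd M l := by
          simp [relProd]
        rw [this, map_mul, map_zpow, toPerm_braidRel M k hk, ih, List.map_cons, List.sum_cons,
          ofAdd_add, map_mul]
        congr 1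
        rw [show shift S (if Odd (M e.1 e.2.1) then -k e.1 e.2.1 else 0) = shiftHom S
          (Multiplicative.ofAdd (if Odd (M e.1 e.2.1) then -k e.1 e.2.1 else 0)) from rfl,
          ← map_zpow, ← ofAdd_zsmul, zsmul_eq_mul]
    exact h L
  obtain ⟨h0⟩ := logSize_nonempty S
  have hzero : (L.map d).sum = 0 := by
    have h := congrArg (fun σ : Equiv.Perm (LogSize S × ℝ) => (σ (h0, 0)).2)
      (hrel.symm.trans (toPerm_commutator M k hk hL))
    simpa [shift_apply] using h
  have hsum : ∀ l : List (S × S × ℤ),
      (l.map d).sum = (expSum l j i : ℝ) - (expSum l i j : ℝ) := by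
    intro l
    induction l with
    | nil => simp [expSum]
    | cons e l ih =>
      obtain ⟨a, b, n⟩ := e
      have hc : ∀ x y : S, expSum ((a, b, n) :: l) x y =
          (if a = x ∧ b = y then n else 0) + expSum l x y := fun x y => by
        simp [expSum]
      rw [List.map_cons, List.sum_cons, ih, hc, hc]
      simp only [Int.cast_add, Int.cast_ite, Int.cast_zero, d, hkdef]
      by_cases h1 : a = i ∧ b = j <;> by_cases h2 : a = j ∧ b = i
      · simp only [h1, h2, h1.1.symm.trans h2.1]
        simp
      · obtain ⟨rfl, rfl⟩ := h1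
        simp [hodd, h2]
        ring
      · obtain ⟨rfl, rfl⟩ := h2
        simp [M.symmetric b a ▸ hodd, h1]
        ring
      · simp [h1, h2]
  rw [hsum] at hzero
  exact_mod_cast (sub_eq_zero.1 hzero).symm

end Vale.Agent.P203
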