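import Vale.Agent.P203.Roots
import Vale.Agent.P203.Main

/-!
Invariant antisymmetric forms on roots give central extensions; the exponent sums over classes
of even braid relators.
-/

namespace Vale.Agent.P203

open Finset

variable {S : Type} (M : CoxeterMatrix S)

/-- The net exponent of a class of pairs in a list of powers of relators. -/
noncomputable def classSum (L : List (S × S × ℤ)) (e : S × S) : ℤ :=
  (L.map fun x => open Classical in if PairRel M e (x.1, x.2.1) then x.2.2 else 0).sum

/-- An invariant antisymmetric form on roots taken up to sign. -/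
structure RootForm where
  val : (S →₀ ℝ) → (S →₀ ℝ) → ℝ
  inv : ∀ s v w, val (titsRefl M s v) (titsRefl M s w) = val v w
  neg_left : ∀ v w, val (-v) w = val v w
  anti : ∀ v w, val w v = -val v w

variable {M} (κ : RootForm M)

/-- The image of a generator in the Heisenberg group of the form. -/
noncomputable def heisPerm (s : S) : Equiv.Perm (((S →₀ ℝ) → ℝ) × ℝ) where
  toFun p := (fun w => κ.val (Finsupp.single s 1) w + p.1 (titsRefl M s w),
    p.2 - p.1 (Finsupp.single s 1))
  invFun p := (fun w => p.1 (titsRefl M s w) - κ.val (Finsupp.single s 1) (titsRefl M s w),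
    p.2 + (p.1 (titsRefl M s (Finsupp.single s 1))
      - κ.val (Finsupp.single s 1) (titsRefl M s (Finsupp.single s 1))))
  left_inv p := by simp [titsRefl_titsRefl]
  right_inv p := by simp [titsRefl_titsRefl]

/-- The homomorphism of the free group. -/
noncomputable def toHeis : FreeGroup S →* Equiv.Perm (((S →₀ ℝ) → ℝ) × ℝ) :=
  FreeGroup.lift (heisPerm κ)

/-- The translations of the last coordinate. -/
def heisShift (S : Type) : Multiplicative ℝ →* Equiv.Perm (((S →₀ ℝ) → ℝ) × ℝ) where
  toFun d := Equiv.prodCongr (Equiv.refl _) (Equiv.addRight (Multiplicative.toAdd d))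
  map_one' := Equiv.ext fun p => by simp
  map_mul' d e := Equiv.ext fun p => by
    refine Prod.ext rfl ?_
    simp [Equiv.Perm.mul_apply]
    ring

lemma heisShift_apply (d : ℝ) (p : ((S →₀ ℝ) → ℝ) × ℝ) :
    heisShift S (Multiplicative.ofAdd d) p = (p.1, p.2 + d) := rfl

variable (M) in
/-- The roots along the alternating word. -/
noncomputable def wordRoot (a b : S) (r : ℕ) : S →₀ ℝ :=
  altRoot (titsRefl M a) (titsRefl M b) (Finsupp.single a 1) (Finsupp.single b 1) r

lemma toHeis_altWord : ∀ (n : ℕ) (a b : S) (h : (S →₀ ℝ) → ℝ) (x : ℝ),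
    (∀ w, (toHeis κ (altWord a b n) (h, x)).1 w =
      h (altMap (titsRefl M a) (titsRefl M b) n w) + ∑ r ∈ range n,
        κ.val (wordRoot M a b r) (altMap (titsRefl M a) (titsRefl M b) n w)) ∧
    (toHeis κ (altWord a b n) (h, x)).2 = x - (∑ r ∈ range n, h (wordRoot M a b r)) -
      ∑ j ∈ range n, ∑ i ∈ range j, κ.val (wordRoot M a b i) (wordRoot M a b j)
  | 0, a, b, h, x => by simp [altWord, altMap]
  | n + 1, a, b, h, x => by
      set h1 : (S →₀ ℝ) → ℝ :=
        fun w => κ.val (Finsupp.single a 1) w + h (titsRefl M a w) with hh1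
      obtain ⟨ih1, ih2⟩ := toHeis_altWord n b a h1 (x - h (Finsupp.single a 1))
      have hstep : toHeis κ (altWord a b (n + 1)) (h, x) =
          toHeis κ (altWord b a n) (h1, x - h (Finsupp.single a 1)) := by
        rw [altWord, map_mul, Equiv.Perm.mul_apply, toHeis, FreeGroup.lift_apply_of]
        rfl
      have hu : titsRefl M a (Finsupp.single a 1) = -Finsupp.single a 1 := by
        have h : fun1 M (fun _ _ => 0) a (Finsupp.single a 1) = 2 := by simp [fun1, bil]
        rw [titsRefl, rho, refl_apply, h]
        module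
      have hk0 : ∀ w, κ.val (Finsupp.single a 1) w =
          κ.val (wordRoot M a b 0) (titsRefl M a w) := by
        intro w
        rw [← κ.inv a, hu, κ.neg_left]
        rfl
      have hksucc : ∀ r w, κ.val (wordRoot M b a r) w =
          κ.val (wordRoot M a b (r + 1)) (titsRefl M a w) := fun r w => (κ.inv a _ _).symm
      rw [hstep]
      refine ⟨fun w => ?_, ?_⟩
      · rw [ih1, sum_range_succ', Finset.sum_congr rfl fun r _ => hksucc r _, hh1]
        simp only [altMap, LinearMap.comp_apply]
        rw [hk0]
        ring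
      · rw [ih2, hh1, sum_range_succ', sum_range_succ']
        simp only [Finset.sum_add_distrib, Finset.sum_range_succ', Finset.range_zero,
          Finset.sum_empty, add_zero]
        rw [Finset.sum_congr rfl fun r _ => hk0 (wordRoot M b a r),
          Finset.sum_congr (s₂ := range n) rfl fun j _ =>
            Finset.sum_congr rfl fun i _ => hksucc i (wordRoot M b a j)]
        simp only [wordRoot, altRoot]
        ring

/-- The central translation of the relator of `(a, b)`, halved. -/
noncomputable def crossSum (e : S × S) : ℝ :=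
  ∑ j ∈ range (M e.1 e.2), ∑ i ∈ range j,
    κ.val (planeRoot M e.1 e.2 i) (planeRoot M e.1 e.2 j)

lemma crossSum_swap (a b : S) (hm : 2 ≤ M a b) :
    crossSum κ (b, a) = -crossSum κ (a, b) := by
  simp only [crossSum, M.symmetric b a]
  rw [Finset.sum_sigma', Finset.sum_sigma', ← Finset.sum_neg_distrib]
  refine Finset.sum_nbij' (fun p => ⟨M a b - 1 - p.2, M a b - 1 - p.1⟩)
    (fun p => ⟨M a b - 1 - p.2, M a b - 1 - p.1⟩) ?_ ?_ ?_ ?_ ?_
  · rintro ⟨j, i⟩ hp
    simp only [coe_sigma, Set.mem_sigma_iff, coe_range, Set.mem_Iio, mem_sigma, mem_range] at *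
    omega
  · rintro ⟨j, i⟩ hp
    simp only [coe_sigma, Set.mem_sigma_iff, coe_range, Set.mem_Iio, mem_sigma, mem_range] at *
    omega
  · rintro ⟨j, i⟩ hp
    simp only [coe_sigma, Set.mem_sigma_iff, coe_range, Set.mem_Iio, mem_sigma, mem_range] at *
    exact Sigma.ext (by dsimp only; omega) (heq_of_eq (by dsimp only; omega))
  · rintro ⟨j, i⟩ hp
    simp only [coe_sigma, Set.mem_sigma_iff, coe_range, Set.mem_Iio, mem_sigma, mem_range] at *
    exact Sigma.ext (by dsimp only; omega) (heq_of_eq (by dsimp only; omega))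
  · rintro ⟨j, i⟩ hp
    simp only [mem_sigma, mem_range] at hp
    rw [planeRoot_swap hm hp.1, planeRoot_swap hm (by omega : i < M a b)]
    exact κ.anti _ _

lemma toHeis_braidRel (a b : S) :
    toHeis κ (braidRel M a b) = heisShift S (Multiplicative.ofAdd (-2 * crossSum κ (a, b))) := by
  classical
  refine Equiv.ext fun p => ?_
  by_cases hab : a = b
  · subst hab
    simp [braidRel, crossSum, heisShift_apply, M.diagonal a]
  by_cases hm0 : M a b = 0
  · simp [braidRel, crossSum, hm0, altWord, heisShift_apply]
  have hm : 2 ≤ M a b := by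
    have := M.off_diagonal a b hab
    omega
  have hba : M b a = M a b := M.symmetric b a
  have hw : ∀ r, wordRoot M a b r = planeRoot M a b r := altRoot_planeRoot hab hm
  have hw' : ∀ r, wordRoot M b a r = planeRoot M b a r :=
    altRoot_planeRoot (Ne.symm hab) (hba ▸ hm)
  have hW : altMap (titsRefl M b) (titsRefl M a) (M a b) =
      altMap (titsRefl M a) (titsRefl M b) (M a b) := by
    refine (altMap_braid hm ?_ ?_ ?_ ?_).symm <;> simp [fun1, bil, hab, Ne.symm hab, hba]
  have hgoal : ∀ h x, toHeis κ (altWord a b (M a b)) (h, x) =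
      heisShift S (Multiplicative.ofAdd (-2 * crossSum κ (a, b)))
        (toHeis κ (altWord b a (M a b)) (h, x)) := by
    intro h x
    obtain ⟨w1, s1⟩ := toHeis_altWord κ (M a b) a b h x
    obtain ⟨w2, s2⟩ := toHeis_altWord κ (M a b) b a h x
    rw [heisShift_apply]
    refine Prod.ext (funext fun w => ?_) ?_
    · simp only [w1, w2, hW, hw, hw']
      congr 1
      rw [← Finset.sum_range_reflect (fun r => κ.val (planeRoot M a b r) _)]
      exact Finset.sum_congr rfl fun r hr => by rw [planeRoot_swap hm (Finset.mem_range.1 hr)]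
    · simp only [s1, s2, hw, hw']
      have hlin : ∑ r ∈ range (M a b), h (planeRoot M b a r) =
          ∑ r ∈ range (M a b), h (planeRoot M a b r) := by
        rw [← Finset.sum_range_reflect (fun r => h (planeRoot M a b r))]
        exact Finset.sum_congr rfl fun r hr => by rw [planeRoot_swap hm (Finset.mem_range.1 hr)]
      have hx := crossSum_swap κ a b hm
      simp only [crossSum, hba] at hx ⊢
      rw [hlin, hx]
      ring
  obtain ⟨h, x⟩ := p
  rw [braidRel, map_mul, map_inv, Equiv.Perm.mul_apply]
  obtain ⟨⟨h', x'⟩, e⟩ := (toHeis κ (altWord b a (M a b))).surjective (h, x)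
  rw [← e, Equiv.Perm.inv_def, Equiv.symm_apply_apply]
  exact hgoal h' x'

lemma heisShift_comm (d : Multiplicative ℝ) (g : FreeGroup S) :
    Commute (heisShift S d) (toHeis κ g) := by
  induction g using FreeGroup.induction_on with
  | C1 => rw [map_one]; exact Commute.one_right _
  | of s =>
    rw [toHeis, FreeGroup.lift_apply_of]
    exact Equiv.ext fun p => by
      simp [heisShift, heisPerm]
      ring
  | inv_of s h => rw [map_inv]; exact h.inv_right
  | mul x y hx hy => rw [map_mul]; exact hx.mul_right hy

/-- A relation among relators pairs to zero with every invariant form. -/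
lemma sum_crossSum_eq_zero (L : List (S × S × ℤ))
    (hL : relProd M L ∈ ⁅(⊤ : Subgroup (FreeGroup S)), relSubgroup M⁆) :
    (L.map fun x => (x.2.2 : ℝ) * crossSum κ (x.1, x.2.1)).sum = 0 := by
  let T := toHeis κ
  let N : Subgroup (FreeGroup S) := (Subgroup.centralizer (Set.range T)).comap T
  have hmem : ∀ {r}, r ∈ N ↔ ∀ f, Commute (T f) (T r) := fun {r} => by
    simp [N, Subgroup.mem_centralizer_iff, Commute, SemiconjBy]
  haveI : N.Normal := ⟨fun r hr f => by
    have hr' := hmem.1 hr
    refine hmem.2 fun f' => ?_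
    rw [show T (f * r * f⁻¹) = T r by
      rw [map_mul, map_mul, (hr' f).eq, mul_assoc, ← map_mul, mul_inv_cancel, map_one, mul_one]]
    exact hr' f'⟩
  have hN : relSubgroup M ≤ N := Subgroup.normalClosure_le_normal (by
    rintro _ ⟨⟨a, b⟩, rfl⟩
    refine hmem.2 fun f => ?_
    show Commute _ (toHeis κ (braidRel M a b))
    rw [toHeis_braidRel]
    exact (heisShift_comm κ _ f).symm)
  have hle : ⁅(⊤ : Subgroup (FreeGroup S)), relSubgroup M⁆ ≤ T.ker :=
    Subgroup.commutator_le.2 fun f _ r hr => by
      rw [MonoidHom.mem_ker, map_commutatorElement, commutatorElement_eq_one_iff_commute]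
      exact hmem.1 (hN hr) f
  have hrel : ∀ l : List (S × S × ℤ), T (relProd M l) = heisShift S (Multiplicative.ofAdd
      (-2 * (l.map fun x => (x.2.2 : ℝ) * crossSum κ (x.1, x.2.1)).sum)) := by
    intro l
    induction l with
    | nil => simp [relProd]
    | cons e l ih =>
      have : relProd M (e :: l) = braidRel M e.1 e.2.1 ^ e.2.2 * relProd M l := by
        simp [relProd]
      show toHeis κ _ = _
      rw [this, map_mul, map_zpow, toHeis_braidRel, ← map_zpow, ← ofAdd_zsmul,
        show toHeis κ (relProd M l) = _ from ih, ← map_mul, ← ofAdd_add]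
      congr 2
      rw [List.map_cons, List.sum_cons, zsmul_eq_mul]
      ring
  have h : (heisShift S (Multiplicative.ofAdd
      (-2 * (L.map fun x => (x.2.2 : ℝ) * crossSum κ (x.1, x.2.1)).sum))
        ((fun _ => (0 : ℝ)), 0)).2 = 0 := by
    rw [← hrel L, show T (relProd M L) = 1 from hle hL]
    rfl
  rw [heisShift_apply] at h
  linarith

/-- Symmetrisation over classes. -/
lemma sum_class_zero {ι : Type} (r : Setoid ι) (swp : ι → ι) (F : ι → ℝ)
    (hswp : ∀ i j, r i j → r (swp i) (swp j)) (hinvol : ∀ i, swp (swp i) = i)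
    (hF : ∀ i j, r i j → F i = F j) (l : List (ι × ℤ))
    (hanti : ∀ x ∈ l, F (swp x.1) = -F x.1)
    (hsum : ∀ x ∈ l, F x.1 ≠ 0 → (open Classical in
      (l.map fun y => if r x.1 y.1 then y.2 else 0).sum =
      (l.map fun y => if r (swp x.1) y.1 then y.2 else 0).sum)) :
    (l.map fun x => (x.2 : ℝ) * F x.1).sum = 0 := by
  classical
  set e : Fin l.length → ι := fun i => (l.get i).1
  set n : Fin l.length → ℤ := fun i => (l.get i).2
  have hlist : ∀ g : ι × ℤ → ℝ, (l.map g).sum = ∑ i, g (l.get i) := by
    intro g
    conv_lhs => rw [← List.ofFn_get l, List.map_ofFn, List.sum_ofFn]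
    rfl
  have hlist' : ∀ g : ι × ℤ → ℤ, (l.map g).sum = ∑ i, g (l.get i) := by
    intro g
    conv_lhs => rw [← List.ofFn_get l, List.map_ofFn, List.sum_ofFn]
    rfl
  rw [hlist]
  show ∑ i, (n i : ℝ) * F (e i) = 0
  let q : ι → Quotient r := Quotient.mk r
  let Fq : Quotient r → ℝ := Quotient.lift F hF
  let Q : Finset (Quotient r) := univ.image (fun i => q (e i)) ∪ univ.image (fun i => q (swp (e i)))
  have hA : ∑ i, (n i : ℝ) * F (e i) =
      ∑ c ∈ Q, Fq c * ∑ i ∈ univ.filter (fun i => q (e i) = c), (n i : ℝ) := by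
    rw [← Finset.sum_fiberwise_of_maps_to (g := fun i => q (e i)) (t := Q) (fun i _ =>
      mem_union_left _ (mem_image_of_mem _ (mem_univ i)))]
    refine Finset.sum_congr rfl fun c _ => ?_
    rw [Finset.mul_sum]
    refine Finset.sum_congr rfl fun i hi => ?_
    rw [← (mem_filter.1 hi).2]
    exact mul_comm _ _
  have hB : ∑ i, (n i : ℝ) * F (swp (e i)) =
      ∑ c ∈ Q, Fq c * ∑ i ∈ univ.filter (fun i => q (swp (e i)) = c), (n i : ℝ) := by
    rw [← Finset.sum_fiberwise_of_maps_to (g := fun i => q (swp (e i))) (t := Q) (fun i _ =>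
      mem_union_right _ (mem_image_of_mem _ (mem_univ i)))]
    refine Finset.sum_congr rfl fun c _ => ?_
    rw [Finset.mul_sum]
    refine Finset.sum_congr rfl fun i hi => ?_
    rw [← (mem_filter.1 hi).2]
    exact mul_comm _ _
  have hfib : ∀ c ∈ Q, Fq c ≠ 0 → ∑ i ∈ univ.filter (fun i => q (e i) = c), n i =
      ∑ i ∈ univ.filter (fun i => q (swp (e i)) = c), n i := by
    intro c hc hFc
    rw [Finset.sum_filter, Finset.sum_filter]
    have key : ∀ x ∈ l, F x.1 ≠ 0 → (∑ i, if r x.1 (e i) then n i else 0) =
        ∑ i, if r (swp x.1) (e i) then n i else 0 := fun x hx hFx => by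
      have h := hsum x hx hFx
      rw [hlist', hlist'] at h
      exact h
    have hiff : ∀ a b, r a (swp b) ↔ r (swp a) b := fun a b =>
      ⟨fun h => by simpa [hinvol] using hswp _ _ h, fun h => by simpa [hinvol] using hswp _ _ h⟩
    simp only [Q, mem_union, mem_image, mem_univ, true_and] at hc
    rcases hc with ⟨k, rfl⟩ | ⟨k, rfl⟩
    · have hk := key _ (l.get_mem k) hFc
      calc (∑ i, if q (e i) = q (e k) then n i else 0)
          = ∑ i, if r (e k) (e i) then n i else 0 := Finset.sum_congr rfl fun i _ =>
            if_congr (Quotient.eq.trans ⟨r.symm', r.symm'⟩) rfl rfl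
        _ = ∑ i, if r (swp (e k)) (e i) then n i else 0 := hk
        _ = ∑ i, if q (swp (e i)) = q (e k) then n i else 0 := Finset.sum_congr rfl fun i _ =>
            if_congr (Iff.trans ⟨fun h => (hiff _ _).2 h, fun h => (hiff _ _).1 h⟩
              (Iff.trans ⟨r.symm', r.symm'⟩ Quotient.eq.symm)) rfl rfl
    · have hk := key _ (l.get_mem k) (fun h0 => hFc (by
        show F (swp (e k)) = 0
        rw [hanti _ (l.get_mem k), h0, neg_zero]))
      calc (∑ i, if q (e i) = q (swp (e k)) then n i else 0)
          = ∑ i, if r (swp (e k)) (e i) then n i else 0 := Finset.sum_congr rfl fun i _ =>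
            if_congr (Quotient.eq.trans ⟨r.symm', r.symm'⟩) rfl rfl
        _ = ∑ i, if r (e k) (e i) then n i else 0 := hk.symm
        _ = ∑ i, if q (swp (e i)) = q (swp (e k)) then n i else 0 := Finset.sum_congr rfl fun i _ =>
            if_congr (Iff.trans ⟨fun h => hswp _ _ h,
              fun h => by simpa [hinvol] using hswp _ _ h⟩
              (Iff.trans ⟨r.symm', r.symm'⟩ Quotient.eq.symm)) rfl rfl
  have hneg : ∑ i, (n i : ℝ) * F (swp (e i)) = -∑ i, (n i : ℝ) * F (e i) := by
    rw [← Finset.sum_neg_distrib]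
    refine Finset.sum_congr rfl fun i _ => ?_
    rw [hanti _ (l.get_mem i)]
    ring
  have heq : ∑ i, (n i : ℝ) * F (e i) = ∑ i, (n i : ℝ) * F (swp (e i)) := by
    rw [hA, hB]
    refine Finset.sum_congr rfl fun c hc => ?_
    by_cases hFc : Fq c = 0
    · rw [hFc, zero_mul, zero_mul]
    · congr 1
      exact_mod_cast hfib c hc hFc
  linarith

variable (M) in
open Classical in
/-- The form attached to the orbit of the pair `t` of simple roots. -/
noncomputable def orbitForm (t : S × S) : RootForm M :=
  let I : (S →₀ ℝ) → (S →₀ ℝ) → Prop := fun v w => ∃ l : List S,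
    (wordMap M l (Finsupp.single t.1 1) = v ∨ wordMap M l (Finsupp.single t.1 1) = -v) ∧
    (wordMap M l (Finsupp.single t.2 1) = w ∨ wordMap M l (Finsupp.single t.2 1) = -w)
  have hI : ∀ s v w, I (titsRefl M s v) (titsRefl M s w) ↔ I v w := by
    have h : ∀ s v w, I v w → I (titsRefl M s v) (titsRefl M s w) :=
      fun s v w ⟨l, h1, h2⟩ => ⟨s :: l,
        by rcases h1 with h | h <;> simp [wordMap, h],
        by rcases h2 with h | h <;> simp [wordMap, h]⟩
    exact fun s v w => ⟨fun hh => by simpa [titsRefl_titsRefl] using h s _ _ hh, h s v w⟩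
  have hneg : ∀ v w, (I (-v) w ↔ I v w) ∧ (I w (-v) ↔ I w v) := fun v w =>
    ⟨by simp only [I, neg_neg, or_comm], by simp only [I, neg_neg, or_comm]⟩
  { val := fun v w => (if I v w then 1 else 0) - (if I w v then 1 else 0)
    inv := fun s v w => by simp only [hI]
    neg_left := fun v w => by simp only [(hneg v w).1, (hneg v w).2]
    anti := fun v w => by ring }

lemma orbitForm_angle {t : S × S} (ht : t.1 ≠ t.2) {v w : S →₀ ℝ}
    (h : (orbitForm M t).val v w ≠ 0) : |form M v w| = |chebC (M t.1 t.2)| := by
  classical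
  have key : ∀ v w, (∃ l : List S,
      (wordMap M l (Finsupp.single t.1 1) = v ∨ wordMap M l (Finsupp.single t.1 1) = -v) ∧
      (wordMap M l (Finsupp.single t.2 1) = w ∨ wordMap M l (Finsupp.single t.2 1) = -w)) →
      |form M v w| = |chebC (M t.1 t.2)| := by
    rintro v w ⟨l, h1, h2⟩
    have := form_wordMap M l (Finsupp.single t.1 1) (Finsupp.single t.2 1)
    rw [form_simple M ht] at this
    rw [← abs_neg (chebC _), ← this]
    rcases h1 with h | h <;> rcases h2 with h' | h' <;> simp [h, h']
  by_contra hne
  refine h ?_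
  simp only [orbitForm]
  rw [if_neg fun hh => hne (key v w hh),
    if_neg fun hh => hne (form_comm M v w ▸ key w v hh), sub_zero]

lemma orbitForm_simple {t e : S × S} (hm : M t.1 t.2 = M e.1 e.2) :
    (orbitForm M t).val (Finsupp.single e.1 1) (Finsupp.single e.2 1) =
      (open Classical in (if PairRel M t e then 1 else 0) -
        (if PairRel M t e.swap then (1 : ℝ) else 0)) := by
  classical
  have hs : M t.1 t.2 = M e.swap.1 e.swap.2 := by simpa [M.symmetric e.2 e.1] using hm
  have h1 : ∀ e : S × S, M t.1 t.2 = M e.1 e.2 → (PairRel M t e ↔ ∃ l : List S,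
      (wordMap M l (Finsupp.single t.1 1) = Finsupp.single e.1 1 ∨
        wordMap M l (Finsupp.single t.1 1) = -Finsupp.single e.1 1) ∧
      (wordMap M l (Finsupp.single t.2 1) = Finsupp.single e.2 1 ∨
        wordMap M l (Finsupp.single t.2 1) = -Finsupp.single e.2 1)) :=
    fun e he => ⟨And.right, fun h => ⟨he, h⟩⟩
  simp only [orbitForm, h1 e hm, h1 e.swap hs, Prod.fst_swap, Prod.snd_swap]

lemma crossSum_of_lt {t : S × S} (ht : t.1 ≠ t.2) (h2 : 2 ≤ M t.1 t.2) {a b : S} (hab : a ≠ b)
    (h : M a b < M t.1 t.2) : crossSum (orbitForm M t) (a, b) = 0 := by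
  refine Finset.sum_eq_zero fun j hj => Finset.sum_eq_zero fun i hi => ?_
  simp only [mem_range] at hi hj
  by_contra hne
  have hm : 2 ≤ M a b := by
    have := M.off_diagonal a b hab
    omega
  obtain ⟨d, rfl⟩ : ∃ d, j = i + d := ⟨j - i, by omega⟩
  have := orbitForm_angle ht hne
  rw [form_planeRoot hab hm] at this
  rcases angle_eq h2 (by omega) (by omega) this with h' | h'
  · have : M t.1 t.2 ≤ d * M t.1 t.2 := Nat.le_mul_of_pos_left _ (by omega)
    omega
  · have : M t.1 t.2 ≤ (M a b - d) * M t.1 t.2 := Nat.le_mul_of_pos_left _ (by omega)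
    omega

lemma consecutive_roots {a b : S} (hab : a ≠ b) (hm : 2 ≤ M a b) (he : Even (M a b)) :
    ∀ i, i + 2 ≤ M a b → κ.val (planeRoot M a b i) (planeRoot M a b (i + 1)) =
      (-1) ^ i * κ.val (Finsupp.single a 1) (Finsupp.single b 1) := by
  set m := M a b with hmdef
  have hP0 : planeRoot M a b 0 = Finsupp.single a 1 := by
    simp only [planeRoot, ← hmdef, chebS_zero, zero_add, chebS_one hm]
    simp
  have hPm : planeRoot M a b m = -Finsupp.single a 1 := by
    simp only [planeRoot, ← hmdef, chebS_self hm, chebS_self_add_one hm]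
    simp
  have hPm1 : planeRoot M a b (m - 1) = Finsupp.single b 1 := by
    simp only [planeRoot, ← hmdef, show m - 1 + 1 = m by omega, chebS_self hm,
      chebS_symm hm (show 1 ≤ m by omega), chebS_one hm]
    simp
  have hshift : ∀ i, i + 3 ≤ m → κ.val (planeRoot M a b (i + 2)) (planeRoot M a b (i + 3)) =
      κ.val (planeRoot M a b i) (planeRoot M a b (i + 1)) := by
    intro i hi
    rw [← κ.inv a, ← κ.inv b, refl_left_planeRoot hab hm (by omega),
      refl_left_planeRoot hab hm (by omega), refl_right_planeRoot hab hm (by omega),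
      refl_right_planeRoot hab hm (by omega)]
    congr 2 <;> omega
  have h0 : κ.val (planeRoot M a b 0) (planeRoot M a b 1) =
      κ.val (Finsupp.single a 1) (Finsupp.single b 1) := by
    rw [← κ.inv a, refl_left_planeRoot hab hm (by omega), refl_left_planeRoot hab hm (by omega),
      Nat.sub_zero, hPm, hPm1, κ.neg_left]
  have h1 : 3 ≤ m → κ.val (planeRoot M a b 1) (planeRoot M a b 2) =
      -κ.val (Finsupp.single a 1) (Finsupp.single b 1) := by
    intro h3
    have hodd : ∀ k, 2 * k + 2 ≤ m → κ.val (planeRoot M a b (2 * k + 1))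
        (planeRoot M a b (2 * k + 2)) = κ.val (planeRoot M a b 1) (planeRoot M a b 2) := by
      intro k
      induction k with
      | zero => exact fun _ => rfl
      | succ k ih => exact fun hk => (hshift (2 * k + 1) (by omega)).trans (ih (by omega))
    obtain ⟨k, hk⟩ := he
    have h := hodd (k - 2) (by omega)
    rw [← h, ← h0, ← κ.inv b (planeRoot M a b 0), refl_right_planeRoot hab hm (by omega),
      refl_right_planeRoot hab hm (by omega), ← κ.anti]
    congr 2 <;> omega
  intro i
  induction i using Nat.twoStepInduction with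
  | zero => intro _; simpa using h0
  | one => intro hi; simpa using h1 (by omega)
  | more i ih _ =>
    intro hi
    rw [hshift i (by omega), ih (by omega)]
    ring

lemma alt_sum (c : ℝ) : ∀ n, ∑ i ∈ range n, (-1 : ℝ) ^ i * c = if Odd n then c else 0
  | 0 => by simp
  | n + 1 => by
      rw [Finset.sum_range_succ, alt_sum c n]
      rcases Nat.even_or_odd n with h | h
      · simp [h.neg_one_pow, Nat.odd_add_one, Nat.not_odd_iff_even.2 h]
      · simp [h.neg_one_pow, Nat.odd_add_one, h]

lemma crossSum_of_eq {t : S × S} (ht : t.1 ≠ t.2) {a b : S} (hab : a ≠ b)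
    (h : M a b = M t.1 t.2) (hm : 2 ≤ M a b) (he : Even (M a b)) :
    crossSum (orbitForm M t) (a, b) = (if M t.1 t.2 = 2 then 1 else 2) *
      (orbitForm M t).val (Finsupp.single a 1) (Finsupp.single b 1) := by
  classical
  set κ := orbitForm M t
  set c := κ.val (Finsupp.single a 1) (Finsupp.single b 1) with hc
  obtain ⟨j, hj⟩ : ∃ j, M a b = j + 2 := ⟨M a b - 2, by omega⟩
  have hzero : ∀ i d, 2 ≤ d → d + 2 ≤ M a b → i + d < M a b →
      κ.val (planeRoot M a b i) (planeRoot M a b (i + d)) = 0 := by
    intro i d h1 h2 h3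
    by_contra hne
    have := orbitForm_angle ht hne
    rw [form_planeRoot hab hm] at this
    rcases angle_eq (by omega) (by omega) (by omega) this with h' | h'
    · have : 2 * M t.1 t.2 ≤ d * M t.1 t.2 := Nat.mul_le_mul_right _ h1
      omega
    · have : 2 * M t.1 t.2 ≤ (M a b - d) * M t.1 t.2 := Nat.mul_le_mul_right _ (by omega)
      omega
  have hlast : κ.val (planeRoot M a b 0) (planeRoot M a b (j + 1)) = c := by
    have hP0 : planeRoot M a b 0 = Finsupp.single a 1 := by
      simp [planeRoot, chebS_zero, chebS_one hm]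
    have hP1 : planeRoot M a b (j + 1) = Finsupp.single b 1 := by
      rw [show j + 1 = M a b - 1 by omega]
      simp only [planeRoot, show M a b - 1 + 1 = M a b by omega, chebS_self hm,
        chebS_symm hm (show 1 ≤ M a b by omega), chebS_one hm]
      simp
    rw [hP0, hP1]
  have hrow : ∀ k, k + 1 < M a b → ∑ i ∈ range (k + 1),
      κ.val (planeRoot M a b i) (planeRoot M a b (k + 1)) =
      (-1) ^ k * c + (if k = j ∧ j ≠ 0 then c else 0) := by
    intro k hk
    rw [Finset.sum_range_succ, consecutive_roots κ hab hm he k (by omega), add_comm]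
    congr 1
    rcases k with _ | k
    · simp [eq_comm]
    · by_cases hkj : k + 1 = j
      · rw [if_pos ⟨hkj, by omega⟩, Finset.sum_range_succ', Finset.sum_eq_zero fun i hi => ?_,
          zero_add]
        · rw [show k + 1 + 1 = j + 1 by omega, hlast]
        · have := Finset.mem_range.1 hi
          obtain ⟨d, hd⟩ : ∃ d, k + 1 + 1 = (i + 1) + d := ⟨k + 1 - i, by omega⟩
          rw [hd]
          exact hzero _ _ (by omega) (by omega) (by omega)
      · rw [if_neg fun h => hkj h.1, Finset.sum_eq_zero fun i hi => ?_]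
        have := Finset.mem_range.1 hi
        obtain ⟨d, hd⟩ : ∃ d, k + 1 + 1 = i + d := ⟨k + 2 - i, by omega⟩
        rw [hd]
        exact hzero _ _ (by omega) (by omega) (by omega)
  have hjeven : Even j := by simpa [hj, Nat.even_add] using he
  simp only [crossSum, ← h, hj]
  rw [Finset.sum_range_succ', Finset.sum_congr rfl fun k hk =>
    hrow k (by have := Finset.mem_range.1 hk; omega), Finset.sum_add_distrib, alt_sum]
  simp only [Finset.range_zero, Finset.sum_empty, add_zero, Nat.odd_add_one,
    Nat.not_odd_iff_even.2 hjeven, not_false_eq_true, ↓reduceIte]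
  rcases Nat.eq_zero_or_pos j with rfl | hjp
  · simp
  · rw [if_neg (by omega : ¬ j + 2 = 2), Finset.sum_eq_single j (fun k _ hk => by simp [hk])
      (fun hk => absurd (Finset.mem_range.2 (by omega : j < j + 1)) hk), if_pos ⟨rfl, by omega⟩]
    ring

lemma crossSum_congr {e e' : S × S} (h : PairRel M e e') (hm : 2 ≤ M e.1 e.2)
    (hne : e.1 ≠ e.2) (hne' : e'.1 ≠ e'.2) (h2 : M e.1 e.2 ≠ 2) :
    crossSum κ e = crossSum κ e' := by
  obtain ⟨hme, l, h1, h3⟩ := h
  have hinv : ∀ (l : List S) v w, κ.val (wordMap M l v) (wordMap M l w) = κ.val v w := by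
    intro l
    induction l with
    | nil => exact fun v w => rfl
    | cons s l ih => exact fun v w => (κ.inv s _ _).trans (ih v w)
  have hCne : chebC (M e.1 e.2) ≠ 0 := by
    have h3' : (3 : ℝ) ≤ (M e.1 e.2 : ℕ) := by exact_mod_cast (by omega : 3 ≤ M e.1 e.2)
    refine (mul_pos two_pos (Real.cos_pos_of_mem_Ioo ⟨?_, ?_⟩)).ne'
    · have : 0 ≤ Real.pi / (M e.1 e.2 : ℕ) := by positivity
      linarith [Real.pi_pos]
    · rw [div_lt_iff₀ (by linarith)]
      nlinarith [Real.pi_pos]
  obtain ⟨ε, hε, hε1, hε2⟩ : ∃ ε : ℝ, (ε = 1 ∨ ε = -1) ∧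
      wordMap M l (Finsupp.single e.1 1) = ε • Finsupp.single e'.1 1 ∧
      wordMap M l (Finsupp.single e.2 1) = ε • Finsupp.single e'.2 1 := by
    have hf := form_wordMap M l (Finsupp.single e.1 1) (Finsupp.single e.2 1)
    rw [form_simple M hne] at hf
    rcases h1 with h | h <;> rcases h3 with h' | h'
    · exact ⟨1, Or.inl rfl, by simp [h], by simp [h']⟩
    · simp [h, h', form_simple M hne', ← hme] at hf
      exact absurd (by linarith : chebC (M e.1 e.2) = 0) hCne
    · simp [h, h', form_simple M hne', ← hme] at hf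
      exact absurd (by linarith : chebC (M e.1 e.2) = 0) hCne
    · exact ⟨-1, Or.inr rfl, by simp [h], by simp [h']⟩
  have hP : ∀ i, wordMap M l (planeRoot M e.1 e.2 i) = ε • planeRoot M e'.1 e'.2 i := by
    intro i
    simp only [planeRoot, map_add, map_smul, hε1, hε2, hme]
    module
  simp only [crossSum, hme]
  refine Finset.sum_congr rfl fun j _ => Finset.sum_congr rfl fun i _ => ?_
  rw [← hinv l, hP, hP]
  rcases hε with rfl | rfl
  · simp
  · simp only [neg_one_smul, κ.neg_left]
    rw [κ.anti, κ.neg_left, κ.anti]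
    ring

/-- The exponent sums over a class of even relators and the reversed class agree. -/
theorem even_classSum_eq (L : List (S × S × ℤ))
    (hL : relProd M L ∈ ⁅(⊤ : Subgroup (FreeGroup S)), relSubgroup M⁆) (a b : S)
    (he : Even (M a b)) (h0 : M a b ≠ 0) : classSum M L (a, b) = classSum M L (b, a) := by
  classical
  suffices H : ∀ k a b, Even (M a b) → M a b ≠ 0 →
      (L.map fun x => M x.1 x.2.1).sum < M a b + k →
      classSum M L (a, b) = classSum M L (b, a) by
    exact H ((L.map fun x => M x.1 x.2.1).sum + 1) a b he h0 (by omega)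
  intro k
  induction k with
  | zero =>
    intro a b _ _ hlt
    have hz : ∀ e : S × S, M e.1 e.2 = M a b → classSum M L e = 0 := fun e he => by
      refine List.sum_eq_zero fun z hz => ?_
      obtain ⟨x, hx, rfl⟩ := List.mem_map.1 hz
      refine if_neg fun h => ?_
      have hle := List.single_le_sum (fun z _ => Nat.zero_le z) _
        (List.mem_map_of_mem (f := fun x => M x.1 x.2.1) hx)
      have hmx : M e.1 e.2 = M x.1 x.2.1 := h.1
      omega
    rw [hz (a, b) rfl, hz (b, a) (M.symmetric b a)]
  | succ k ih =>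
    intro a b hev hnz hlt
    have hab : a ≠ b := by
      rintro rfl
      rw [M.diagonal a] at hev
      exact absurd hev (by decide)
    have hm : 2 ≤ M a b := by
      have := M.off_diagonal a b hab
      omega
    set κ := orbitForm M (a, b)
    set c : ℝ := if M a b = 2 then 1 else 2 with hc
    let F : S × S → ℝ := crossSum κ
    let l := L.map fun x => ((x.1, x.2.1), x.2.2)
    have hdiag : ∀ e : S × S, e.1 = e.2 → F e = 0 := fun e h => by
      simp [F, crossSum, h, M.diagonal e.2]
    have hinf : ∀ e : S × S, M e.1 e.2 = 0 → F e = 0 := fun e h => by simp [F, crossSum, h]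
    have hanti : ∀ e : S × S, F e.swap = -F e := by
      intro e
      by_cases h : e.1 = e.2
      · rw [hdiag e h, hdiag e.swap h.symm, neg_zero]
      · by_cases h' : M e.1 e.2 = 0
        · rw [hinf e h', hinf e.swap ((M.symmetric e.2 e.1).trans h'), neg_zero]
        · exact crossSum_swap κ e.1 e.2 (by have := M.off_diagonal _ _ h; omega)
    have htot : (L.map fun x => (x.2.2 : ℝ) * F (x.1, x.2.1)).sum = 0 :=
      sum_crossSum_eq_zero κ L hL
    let Big : S × S → Prop := fun e => Even (M e.1 e.2) ∧ M a b < M e.1 e.2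
    have hBswap : ∀ e : S × S, Big e.swap ↔ Big e := fun e => by
      simp [Big, M.symmetric e.2 e.1]
    let Od : S × S → Prop := fun e => Odd (M e.1 e.2)
    let rel : Setoid (S × S) :=
      ⟨PairRel M, ⟨PairRel.refl', PairRel.symm', PairRel.trans'⟩⟩
    have hpart1 : (L.map fun x => (x.2.2 : ℝ) *
        (if Od (x.1, x.2.1) then F (x.1, x.2.1) else 0)).sum = 0 := by
      have hOswap : ∀ e : S × S, Od e.swap ↔ Od e := fun e => by
        simp [Od, M.symmetric e.2 e.1]
      have := sum_class_zero (ι := S × S) ⊥ Prod.swap (fun e => if Od e then F e else 0)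
        (fun i j h => congrArg Prod.swap h) (fun i => i.swap_swap)
        (fun i j h => congrArg (fun e => if Od e then F e else 0) h) l
        (fun x _ => by
          simp only [hOswap]
          split_ifs
          · exact hanti _
          · exact neg_zero.symm)
        (fun x hx hne => by
          obtain ⟨y, hy, rfl⟩ := List.mem_map.1 hx
          have hod : Odd (M y.1 y.2.1) := by
            by_contra h
            exact hne (if_neg h)
          have := odd_expSum_eq M L hL y.1 y.2.1 hod
          simp only [expSum] at this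
          simp only [l, List.map_map]
          convert this using 2 <;>
            exact List.map_congr_left fun z _ =>
              if_congr (by simp [Setoid.bot_def, Prod.ext_iff, eq_comm]) rfl rfl)
      simpa [l, List.map_map, Function.comp_def] using this
    have hpart2 : (L.map fun x => (x.2.2 : ℝ) *
        (if Big (x.1, x.2.1) then F (x.1, x.2.1) else 0)).sum = 0 := by
      have hcongr : ∀ e e', PairRel M e e' →
          (if Big e then F e else 0) = if Big e' then F e' else 0 := by
        intro e e' h
        have hme : M e.1 e.2 = M e'.1 e'.2 := h.1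
        by_cases hB : Big e
        · have hB' : Big e' := ⟨hme ▸ hB.1, hme ▸ hB.2⟩
          rw [if_pos hB, if_pos hB']
          have hd : ∀ e : S × S, Big e → e.1 ≠ e.2 := fun e hBe he' => by
            have := hBe.2
            rw [he', M.diagonal] at this
            omega
          have := hB.2
          exact crossSum_congr κ h (by omega) (hd e hB) (hd e' hB') (by omega)
        · rw [if_neg hB, if_neg fun hB' => hB ⟨hme ▸ hB'.1, hme ▸ hB'.2⟩]
      have := sum_class_zero (ι := S × S) rel Prod.swap (fun e => if Big e then F e else 0)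
        (fun i j h => PairRel.flip h) (fun i => i.swap_swap) hcongr l
        (fun x _ => by
          simp only [hBswap]
          split_ifs
          · exact hanti _
          · exact neg_zero.symm)
        (fun x hx hne => by
          obtain ⟨y, hy, rfl⟩ := List.mem_map.1 hx
          have hB : Big (y.1, y.2.1) := by
            by_contra h
            exact hne (if_neg h)
          have hBy : M a b < M y.1 y.2.1 := hB.2
          have h' := ih y.1 y.2.1 hB.1 (by omega) (by omega)
          simp only [classSum] at h'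
          simp only [l, List.map_map, Function.comp_def, Prod.swap_prod_mk]
          exact h')
      simpa [l, List.map_map, Function.comp_def] using this
    have hsplit : ∀ e : S × S, F e = (if Od e then F e else 0) + (if Big e then F e else 0) +
        c * ((if PairRel M (a, b) e then 1 else 0) - (if PairRel M (b, a) e then 1 else 0)) := by
      intro e
      have hrel : PairRel M (b, a) e ↔ PairRel M (a, b) e.swap :=
        ⟨PairRel.flip, fun h => by simpa using h.flip⟩
      have hnotrel : M e.1 e.2 ≠ M a b →
          ¬ PairRel M (a, b) e ∧ ¬ PairRel M (b, a) e := fun h =>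
        ⟨fun hh => h hh.1.symm, fun hh => h (hh.1.symm.trans (M.symmetric b a))⟩
      by_cases hO : Od e
      · have hB : ¬ Big e := fun hB => (Nat.not_even_iff_odd.2 hO) hB.1
        have hne : M e.1 e.2 ≠ M a b := fun h => (Nat.not_even_iff_odd.2 hO) (h ▸ hev)
        rw [if_pos hO, if_neg hB, if_neg (hnotrel hne).1, if_neg (hnotrel hne).2]
        ring
      have hev' : Even (M e.1 e.2) := Nat.not_odd_iff_even.1 hO
      by_cases hB : Big e
      · have hne : M e.1 e.2 ≠ M a b := fun h => by have := hB.2; omega
        rw [if_neg hO, if_pos hB, if_neg (hnotrel hne).1, if_neg (hnotrel hne).2]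
        ring
      rw [if_neg hO, if_neg hB, zero_add, zero_add]
      have hd : e.1 ≠ e.2 := fun h => by
        rw [h, M.diagonal] at hev'
        exact absurd hev' (by decide)
      rcases lt_trichotomy (M e.1 e.2) (M a b) with h | h | h
      · rw [if_neg (hnotrel h.ne).1, if_neg (hnotrel h.ne).2, sub_zero, mul_zero]
        exact crossSum_of_lt (t := (a, b)) hab hm hd h
      · have := crossSum_of_eq (t := (a, b)) hab hd h (by omega) hev'
        rw [orbitForm_simple (t := (a, b)) (e := (e.1, e.2)) h.symm] at this
        simp only [hrel]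
        exact this
      · exact absurd ⟨hev', h⟩ hB
    have hfinal : ∀ l : List (S × S × ℤ), (l.map fun x => (x.2.2 : ℝ) * F (x.1, x.2.1)).sum =
        (l.map fun x => (x.2.2 : ℝ) * (if Od (x.1, x.2.1) then F (x.1, x.2.1) else 0)).sum +
        (l.map fun x => (x.2.2 : ℝ) * (if Big (x.1, x.2.1) then F (x.1, x.2.1) else 0)).sum +
        c * ((classSum M l (a, b) : ℝ) - (classSum M l (b, a) : ℝ)) := by
      intro l
      induction l with
      | nil => simp [classSum]
      | cons x l ihl =>
        simp only [List.map_cons, List.sum_cons, classSum, Int.cast_add, Int.cast_ite,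
          Int.cast_zero] at ihl ⊢
        rw [ihl]
        conv_lhs => rw [hsplit (x.1, x.2.1)]
        split_ifs <;> ring
    rw [hfinal, hpart1, hpart2, zero_add, zero_add] at htot
    have hcne : c ≠ 0 := by
      rw [hc]
      split_ifs <;> norm_num
    exact_mod_cast sub_eq_zero.1 ((mul_eq_zero.1 htot).resolve_left hcne)

end Vale.Agent.P203
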