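import Vale.Agent.P203.Base

/-!
The undeformed representation: the invariant form, classes of pairs of generators, and the
angles between the roots along a braid word.
-/

namespace Vale.Agent.P203

open Real

variable {S : Type} (M : CoxeterMatrix S)

/-- The reflection `s` of the Tits representation. -/
noncomputable def titsRefl (s : S) : (S →₀ ℝ) →ₗ[ℝ] (S →₀ ℝ) := rho M (fun _ _ => 0) s

/-- The action of a word in the Tits representation. -/
noncomputable def wordMap : List S → ((S →₀ ℝ) →ₗ[ℝ] (S →₀ ℝ))
  | [] => LinearMap.id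
  | s :: l => titsRefl M s ∘ₗ wordMap l

/-- Some element of the Coxeter group maps the simple roots of the first pair, up to sign, to
those of the second. -/
def PairRel (e e' : S × S) : Prop :=
  M e.1 e.2 = M e'.1 e'.2 ∧ ∃ l : List S,
    (wordMap M l (Finsupp.single e.1 1) = Finsupp.single e'.1 1 ∨
      wordMap M l (Finsupp.single e.1 1) = -Finsupp.single e'.1 1) ∧
    (wordMap M l (Finsupp.single e.2 1) = Finsupp.single e'.2 1 ∨
      wordMap M l (Finsupp.single e.2 1) = -Finsupp.single e'.2 1)

variable {M}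

lemma titsRefl_titsRefl (s : S) (w : S →₀ ℝ) : titsRefl M s (titsRefl M s w) = w :=
  rho_rho M _ s w

lemma wordMap_append : ∀ (l l' : List S) (w : S →₀ ℝ),
    wordMap M (l ++ l') w = wordMap M l (wordMap M l' w)
  | [], l', w => rfl
  | s :: l, l', w => by simp [wordMap, wordMap_append l l' w]

lemma wordMap_reverse : ∀ (l : List S) (w : S →₀ ℝ), wordMap M l.reverse (wordMap M l w) = w
  | [], w => rfl
  | s :: l, w => by
      rw [List.reverse_cons, wordMap_append]
      simp [wordMap, titsRefl_titsRefl, wordMap_reverse l w]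

lemma PairRel.refl' (e : S × S) : PairRel M e e :=
  ⟨rfl, [], Or.inl rfl, Or.inl rfl⟩

lemma sign_back {l : List S} {v v' : S →₀ ℝ} (h : wordMap M l v = v' ∨ wordMap M l v = -v') :
    wordMap M l.reverse v' = v ∨ wordMap M l.reverse v' = -v := by
  rcases h with h | h
  · exact Or.inl (by rw [← h, wordMap_reverse])
  · exact Or.inr (by rw [← neg_neg v', ← h, map_neg, wordMap_reverse])

lemma sign_comp {l l' : List S} {v v' v'' : S →₀ ℝ}
    (h : wordMap M l v = v' ∨ wordMap M l v = -v')
    (h' : wordMap M l' v' = v'' ∨ wordMap M l' v' = -v'') :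
    wordMap M (l' ++ l) v = v'' ∨ wordMap M (l' ++ l) v = -v'' := by
  rcases h with h | h <;> rcases h' with h' | h' <;> simp [wordMap_append, h, h', map_neg]

lemma PairRel.symm' {e e' : S × S} : PairRel M e e' → PairRel M e' e := fun ⟨hm, l, h1, h2⟩ =>
  ⟨hm.symm, l.reverse, sign_back h1, sign_back h2⟩

lemma PairRel.trans' {e e' e'' : S × S} :
    PairRel M e e' → PairRel M e' e'' → PairRel M e e'' :=
  fun ⟨hm, l, h1, h2⟩ ⟨hm', l', h1', h2'⟩ =>
    ⟨hm.trans hm', l' ++ l, sign_comp h1 h1', sign_comp h2 h2'⟩

lemma PairRel.flip {e e' : S × S} : PairRel M e e' → PairRel M e.swap e'.swap :=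
  fun ⟨hm, l, h1, h2⟩ => ⟨by simpa [M.symmetric e.2 e.1, M.symmetric e'.2 e'.1] using hm, l, h2, h1⟩

variable (M)

/-- The invariant symmetric form. -/
noncomputable def form : (S →₀ ℝ) →ₗ[ℝ] (S →₀ ℝ) →ₗ[ℝ] ℝ :=
  Finsupp.linearCombination ℝ (fun1 M fun _ _ => 0)

lemma form_single (s : S) (w : S →₀ ℝ) :
    form M (Finsupp.single s 1) w = fun1 M (fun _ _ => 0) s w := by simp [form]

lemma bil_comm (s t : S) : bil M (fun _ _ => 0) s t = bil M (fun _ _ => 0) t s := by
  simp only [bil, M.symmetric t s]
  rcases eq_or_ne s t with rfl | h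
  · rfl
  · simp [h, h.symm]

lemma form_comm (v w : S →₀ ℝ) : form M v w = form M w v := by
  have h : form M = (form M).flip := by
    refine Finsupp.lhom_ext fun s x => Finsupp.lhom_ext fun t y => ?_
    simp [form, fun1, bil_comm M s t]
    ring
  exact congrArg (fun F => F v w) h

lemma form_refl (s : S) (v w : S →₀ ℝ) :
    form M (titsRefl M s v) (titsRefl M s w) = form M v w := by
  set f := fun1 M (fun _ _ => 0) s
  have h2 : f (Finsupp.single s 1) = 2 := by simp [f, fun1, bil]
  have hl : ∀ x, form M (Finsupp.single s 1) x = f x := fun x => form_single M s x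
  have hr : ∀ x, form M x (Finsupp.single s 1) = f x := fun x => by rw [form_comm, hl]
  simp only [titsRefl, rho, refl_apply, map_sub, map_smul, LinearMap.sub_apply,
    LinearMap.smul_apply, hl, hr, smul_eq_mul]
  rw [show (fun1 M fun _ _ => 0) s = f from rfl, h2]
  ring

lemma form_wordMap : ∀ (l : List S) (v w : S →₀ ℝ),
    form M (wordMap M l v) (wordMap M l w) = form M v w
  | [], v, w => rfl
  | s :: l, v, w => by simp [wordMap, form_refl, form_wordMap l v w]

lemma form_simple {a b : S} (h : a ≠ b) :
    form M (Finsupp.single a 1) (Finsupp.single b 1) = -chebC (M a b) := by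
  simp [form, fun1, bil, h]

lemma form_simple_self (a : S) : form M (Finsupp.single a 1) (Finsupp.single a 1) = 2 := by
  simp [form, fun1, bil]

/-- The `i`-th root of the dihedral group of `(a, b)`. -/
noncomputable def planeRoot (a b : S) (i : ℕ) : S →₀ ℝ :=
  chebS (M a b) (i + 1) • Finsupp.single a 1 + chebS (M a b) i • Finsupp.single b 1

variable {M}

lemma planePair {a b : S} (h : a ≠ b) :
    PlanePair (M a b) (titsRefl M a) (titsRefl M b) (Finsupp.single a 1)
      (Finsupp.single b 1) := by
  have hba : M b a = M a b := M.symmetric b a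
  have hs : ∀ c : S, fun1 M (fun _ _ => 0) c (Finsupp.single c 1) = 2 := fun c => by
    simp [fun1, bil]
  have h1 : fun1 M (fun _ _ => 0) a (Finsupp.single b 1) = -chebC (M a b) := by
    simp [fun1, bil, h]
  have h2 : fun1 M (fun _ _ => 0) b (Finsupp.single a 1) = -chebC (M a b) := by
    simp [fun1, bil, h.symm, hba]
  exact ⟨by rw [titsRefl, rho, refl_apply, hs]; module,
    by rw [titsRefl, rho, refl_apply, h1]; module,
    by rw [titsRefl, rho, refl_apply, hs]; module,
    by rw [titsRefl, rho, refl_apply, h2]; module⟩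

lemma refl_left_planeRoot {a b : S} (h : a ≠ b) (hm : 2 ≤ M a b) {i : ℕ} (hi : i ≤ M a b) :
    titsRefl M a (planeRoot M a b i) = planeRoot M a b (M a b - i) := by
  have hp := planePair (M := M) h
  rcases Nat.eq_zero_or_pos i with rfl | hpos
  · simp [planeRoot, hp.au, chebS_zero, chebS_one hm, chebS_self hm, chebS_self_add_one hm]
  obtain ⟨j, rfl⟩ : ∃ j, i = j + 1 := ⟨i - 1, by omega⟩
  simp only [planeRoot, map_add, map_smul, hp.au, hp.av]
  rw [show M a b - (j + 1) + 1 = M a b - j by omega, chebS_symm hm hi,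
    chebS_symm hm (by omega : j ≤ M a b), chebS_rec j]
  module

lemma refl_right_planeRoot {a b : S} (h : a ≠ b) (hm : 2 ≤ M a b) {i : ℕ}
    (hi : i + 2 ≤ M a b) :
    titsRefl M b (planeRoot M a b i) = planeRoot M a b (M a b - (i + 2)) := by
  have hp := planePair (M := M) h
  simp only [planeRoot, map_add, map_smul, hp.bu, hp.bv]
  rw [show M a b - (i + 2) + 1 = M a b - (i + 1) by omega, chebS_symm hm hi,
    chebS_symm hm (by omega : i + 1 ≤ M a b), chebS_rec i]
  module

lemma planeRoot_swap {a b : S} (hm : 2 ≤ M a b) {i : ℕ} (hi : i < M a b) :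
    planeRoot M b a i = planeRoot M a b (M a b - 1 - i) := by
  simp only [planeRoot, M.symmetric b a]
  rw [show M a b - 1 - i + 1 = M a b - i by omega,
    show M a b - 1 - i = M a b - (i + 1) by omega, chebS_symm hm hi.le, chebS_symm hm hi]
  abel

lemma altRoot_planeRoot {a b : S} (h : a ≠ b) (hm : 2 ≤ M a b) (i : ℕ) :
    altRoot (titsRefl M a) (titsRefl M b) (Finsupp.single a 1) (Finsupp.single b 1) i =
      planeRoot M a b i := altRoot_eq hm i (planePair h)

lemma form_planeRoot {a b : S} (h : a ≠ b) (hm : 2 ≤ M a b) (i : ℕ) : ∀ d,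
    form M (planeRoot M a b i) (planeRoot M a b (i + d)) = 2 * Real.cos (d * (π / M a b)) := by
  have hf : ∀ i j, form M (planeRoot M a b i) (planeRoot M a b j) =
      2 * (chebS (M a b) (i + 1) * chebS (M a b) (j + 1) + chebS (M a b) i * chebS (M a b) j) -
      chebC (M a b) *
        (chebS (M a b) (i + 1) * chebS (M a b) j + chebS (M a b) i * chebS (M a b) (j + 1)) := by
    intro i j
    simp only [planeRoot, map_add, map_smul, LinearMap.add_apply, LinearMap.smul_apply,
      smul_eq_mul, form_simple_self, form_simple M h, form_simple M h.symm, M.symmetric b a]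
    ring
  have hinv : ∀ i, chebS (M a b) (i + 1) ^ 2 + chebS (M a b) i ^ 2 -
      chebC (M a b) * chebS (M a b) (i + 1) * chebS (M a b) i = 1 := by
    intro i
    induction i with
    | zero => simp [chebS_zero, chebS_one hm]
    | succ i ih => rw [chebS_rec i]; linarith
  have key : ∀ d, form M (planeRoot M a b i) (planeRoot M a b (i + d)) =
        2 * Real.cos (d * (π / M a b)) ∧
      form M (planeRoot M a b i) (planeRoot M a b (i + d + 1)) =
        2 * Real.cos ((d + 1 : ℕ) * (π / M a b)) := by
    intro d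
    induction d with
    | zero =>
      constructor
      · rw [add_zero, hf]
        simp only [Nat.cast_zero, zero_mul, Real.cos_zero]
        linear_combination (2 : ℝ) * hinv i
      · rw [add_zero, hf, chebS_rec i]
        simp only [Nat.cast_add, Nat.cast_zero, Nat.cast_one, zero_add, one_mul]
        have := hinv i
        show _ = chebC (M a b)
        linear_combination chebC (M a b) * this
    | succ d ih =>
      refine ⟨ih.2, ?_⟩
      have h1 := ih.1
      have h2 := ih.2
      rw [hf] at h1 h2 ⊢
      rw [show i + (d + 1) + 1 = (i + d) + 2 by omega, show (i + d) + 2 + 1 = (i + d + 1) + 2 by omega,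
        chebS_rec (i + d + 1), chebS_rec (i + d)] at *
      have hc : Real.cos ((d + 1 + 1 : ℕ) * (π / M a b)) =
          2 * Real.cos (π / M a b) * Real.cos ((d + 1 : ℕ) * (π / M a b)) -
            Real.cos (d * (π / M a b)) := by
        push_cast
        have e1 : ((d : ℝ) + 1 + 1) * (π / M a b) = ((d : ℝ) + 1) * (π / M a b) + π / M a b := by
          ring
        have e2 : (d : ℝ) * (π / M a b) = ((d : ℝ) + 1) * (π / M a b) - π / M a b := by ring
        rw [e1, e2, Real.cos_add, Real.cos_sub]
        ring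
      rw [hc]
      simp only [chebC] at *
      linear_combination (2 * Real.cos (π / M a b)) * h2 - h1
  exact fun d => (key d).1

/-- Roots at the angle `π / m₀` inside a dihedral group of order `2 m`. -/
lemma angle_eq {m m₀ d : ℕ} (hm₀ : 2 ≤ m₀) (hd : 1 ≤ d) (hdm : d < m)
    (h : |2 * Real.cos (d * (π / m))| = |chebC m₀|) : d * m₀ = m ∨ (m - d) * m₀ = m := by
  have hm : (0 : ℝ) < m := by exact_mod_cast (by omega : 0 < m)
  have hm₀' : (2 : ℝ) ≤ m₀ := by exact_mod_cast hm₀
  have hd' : (0 : ℝ) ≤ d := d.cast_nonneg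
  have hdm' : (d : ℝ) ≤ m := by exact_mod_cast hdm.le
  have hx : d * (π / m) ∈ Set.Icc 0 π :=
    ⟨by positivity, by rw [mul_div_assoc', div_le_iff₀ hm]; nlinarith [Real.pi_pos]⟩
  have hy : π / (m₀ : ℝ) ∈ Set.Icc 0 π :=
    ⟨by positivity, by rw [div_le_iff₀ (by linarith)]; nlinarith [Real.pi_pos]⟩
  unfold chebC at h
  rcases abs_eq_abs.1 h with h | h
  · left
    have := Real.injOn_cos hx hy (by linarith)
    rw [mul_div_assoc', div_eq_div_iff hm.ne' (by linarith)] at this
    have : (d : ℝ) * m₀ = m := mul_left_cancel₀ Real.pi_ne_zero (by linarith)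
    exact_mod_cast this
  · right
    have := Real.injOn_cos hx (x₂ := π - π / m₀) ⟨by linarith [hy.2], by linarith [hy.1]⟩
      (by rw [Real.cos_pi_sub]; linarith)
    have : ((m - d : ℕ) : ℝ) * m₀ = m := by
      rw [Nat.cast_sub hdm.le]
      field_simp at this
      nlinarith
    exact_mod_cast this

end Vale.Agent.P203
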